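import Mathlib

set_option autoImplicit false

namespace Crest.Agent.H0326

open MeasureTheory
open scoped ENNReal

abbrev E2 := EuclideanSpace ℝ (Fin 2)
abbrev E3 := EuclideanSpace ℝ (Fin 3)

/-- area spanned by two vectors -/
noncomputable def gram {V : Type*} [NormedAddCommGroup V] [InnerProductSpace ℝ V] (a b : V) : ℝ :=
  √(‖a‖ ^ 2 * ‖b‖ ^ 2 - inner ℝ a b ^ 2)

lemma gram_nonneg {V : Type*} [NormedAddCommGroup V] [InnerProductSpace ℝ V] (a b : V) :
    0 ≤ gram a b := Real.sqrt_nonneg _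

noncomputable def toE2 : ℝ × ℝ ≃ᵐ E2 :=
  (MeasurableEquiv.finTwoArrow (α := ℝ)).symm.trans (MeasurableEquiv.toLp 2 (Fin 2 → ℝ))

lemma toE2_apply (p : ℝ × ℝ) : toE2 p = !₂[p.1, p.2] := rfl

lemma measurePreserving_toE2 : MeasurePreserving toE2 volume volume :=
  (volume_preserving_finTwoArrow ℝ).symm.trans
    (EuclideanSpace.volume_preserving_symm_measurableEquiv_toLp (Fin 2)).symm

lemma volume_toE2_image (S : Set (ℝ × ℝ)) : volume (toE2 '' S) = volume S := by
  rw [← measurePreserving_toE2.measure_preimage_equiv (toE2 '' S),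
    Set.preimage_image_eq _ toE2.injective]

/-- volume of an affine image of a planar set, in the Euclidean plane -/
lemma volume_image_plane (c a b : E2) (S : Set (ℝ × ℝ)) :
    volume ((fun p : ℝ × ℝ => c + p.1 • a + p.2 • b) '' S) =
      ENNReal.ofReal |a 0 * b 1 - a 1 * b 0| * volume S := by
  let M : Matrix (Fin 2) (Fin 2) ℝ := !![a 0, b 0; a 1, b 1]
  let f : E2 →ₗ[ℝ] E2 := Matrix.toLpLin 2 2 M
  have hdet : LinearMap.det f = a 0 * b 1 - a 1 * b 0 := by
    simp only [f]
    rw [Matrix.toLpLin_eq_toLin, LinearMap.det_toLin, Matrix.det_fin_two]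
    simp [M]; ring
  have h1 : (fun p : ℝ × ℝ => c + p.1 • a + p.2 • b) '' S =
      (fun x => c + x) '' (f '' (toE2 '' S)) := by
    rw [Set.image_image, Set.image_image]
    apply Set.image_congr
    intro p _
    ext i
    fin_cases i <;> simp [f, M, toE2_apply, Matrix.toLpLin_apply] <;> ring
  rw [h1, Set.image_add_left, measure_preimage_add, Measure.addHaar_image_linearMap, hdet,
    volume_toE2_image]

lemma gram_E2 (a b : E2) : gram a b = |a 0 * b 1 - a 1 * b 0| := by
  rw [gram, ← Real.sqrt_sq_eq_abs]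
  congr 1
  simp [EuclideanSpace.norm_sq_eq, Fin.sum_univ_two, PiLp.inner_apply]
  ring

lemma exists_normal (a b : E3) : ∃ n : E3, n ≠ 0 ∧ inner ℝ n a = 0 ∧ inner ℝ n b = 0 := by
  have h1 : Module.finrank ℝ (Submodule.span ℝ (Set.range ![a, b])) ≤ 2 := by
    exact (finrank_range_le_card (R := ℝ) ![a, b]).trans (by simp)
  have h2 := Submodule.finrank_add_finrank_orthogonal (Submodule.span ℝ (Set.range ![a, b]))
  have h3 : Module.finrank ℝ E3 = 3 := by simp
  have h4 : (Submodule.span ℝ (Set.range ![a, b]))ᗮ ≠ ⊥ := by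
    intro h
    rw [h, finrank_bot] at h2
    omega
  obtain ⟨n, hn, hn0⟩ := Submodule.exists_mem_ne_zero_of_ne_bot h4
  refine ⟨n, hn0, ?_, ?_⟩
  · rw [real_inner_comm]
    exact hn a (Submodule.subset_span ⟨0, rfl⟩)
  · rw [real_inner_comm]
    exact hn b (Submodule.subset_span ⟨1, rfl⟩)

lemma exists_plane (a b : E3) : ∃ (ι : E2 →ₗᵢ[ℝ] E3) (a' b' : E2), ι a' = a ∧ ι b' = b := by
  obtain ⟨n, hn, ha, hb⟩ := exists_normal a b
  have : Fact (Module.finrank ℝ E3 = 2 + 1) := ⟨by simp⟩
  let B := OrthonormalBasis.fromOrthogonalSpanSingleton (𝕜 := ℝ) 2 hn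
  refine ⟨(ℝ ∙ n)ᗮ.subtypeₗᵢ.comp B.repr.symm.toLinearIsometry,
    B.repr ⟨a, Submodule.mem_orthogonal_singleton_iff_inner_right.2 ha⟩,
    B.repr ⟨b, Submodule.mem_orthogonal_singleton_iff_inner_right.2 hb⟩, ?_, ?_⟩ <;> simp

/-- area of an affine image of a planar set in three-space -/
theorem area_image (c a b : E3) (S : Set (ℝ × ℝ)) :
    μHE[2] ((fun p : ℝ × ℝ => c + p.1 • a + p.2 • b) '' S) =
      ENNReal.ofReal (gram a b) * volume S := by
  obtain ⟨ι, a', b', rfl, rfl⟩ := exists_plane a b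
  have hiso : Isometry (fun x : E2 => c + ι x) := (isometry_add_left c).comp ι.isometry
  have h1 : (fun p : ℝ × ℝ => c + p.1 • ι a' + p.2 • ι b') '' S =
      (fun x : E2 => c + ι x) '' ((fun p : ℝ × ℝ => (0 : E2) + p.1 • a' + p.2 • b') '' S) := by
    rw [Set.image_image]
    apply Set.image_congr
    intro p _
    simp [add_assoc]
  rw [h1, hiso.euclideanHausdorffMeasure_image, EuclideanSpace.euclideanHausdorffMeasure_eq_volume,
    volume_image_plane, ← gram_E2]
  simp [gram]

/-- the standard triangle -/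
def stdTri : Set (ℝ × ℝ) := {p | 0 ≤ p.1 ∧ 0 ≤ p.2 ∧ p.1 + p.2 ≤ 1}

lemma volume_stdTri : volume stdTri = ENNReal.ofReal (1 / 2) := by
  have h1 : stdTri =ᵐ[volume] regionBetween (fun _ => 0) (fun x => 1 - x) (Set.Icc (0 : ℝ) 1) := by
    have e : stdTri = {p : ℝ × ℝ | p.1 ∈ Set.Icc (0 : ℝ) 1 ∧
        p.2 ∈ Set.Icc ((fun _ => 0) p.1) ((fun x => 1 - x) p.1)} := by
      ext p
      simp only [stdTri, Set.mem_ofPred_eq, Set.mem_Icc]
      constructor
      · rintro ⟨a, b, c⟩; exact ⟨⟨a, by linarith⟩, b, by linarith⟩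
      · rintro ⟨⟨a, b⟩, c, d⟩; exact ⟨a, c, by linarith⟩
    have hm : MeasurableSet stdTri := by
      rw [e]; exact measurableSet_region_between_cc measurable_const (by fun_prop) measurableSet_Icc
    have hm2 : MeasurableSet (regionBetween (fun _ => (0 : ℝ)) (fun x => 1 - x)
        (Set.Icc (0 : ℝ) 1)) :=
      measurableSet_regionBetween measurable_const (by fun_prop) measurableSet_Icc
    rw [Measure.volume_eq_prod]
    rw [Filter.eventuallyEq_set, Measure.ae_prod_iff_ae_ae (by measurability)]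
    refine Filter.Eventually.of_forall fun x => ?_
    have hx : ∀ᵐ y : ℝ, y ≠ 0 ∧ y ≠ 1 - x :=
      (Measure.ae_ne volume 0).and (Measure.ae_ne volume _)
    filter_upwards [hx] with y hy
    simp only [stdTri, regionBetween, Set.mem_ofPred_eq, Set.mem_Icc, Set.mem_Ioo]
    constructor
    · rintro ⟨a, b, c⟩
      exact ⟨⟨a, by linarith⟩, lt_of_le_of_ne b hy.1.symm, lt_of_le_of_ne (by linarith) hy.2⟩
    · rintro ⟨⟨a, b⟩, c, d⟩; exact ⟨a, c.le, by linarith⟩
  rw [measure_congr h1, Measure.volume_eq_prod, volume_regionBetween_eq_integral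
    (by simp) (by apply Continuous.integrableOn_Icc; fun_prop) measurableSet_Icc
    (fun x hx => by linarith [hx.2])]
  congr 1
  rw [integral_Icc_eq_integral_Ioc, ← intervalIntegral.integral_of_le zero_le_one]
  simp only [Pi.sub_apply, sub_zero]
  rw [intervalIntegral.integral_sub (by simp) (by simp)]
  simp; norm_num

lemma convexHull_triple {V : Type*} [AddCommGroup V] [Module ℝ V] (p q r : V) :
    convexHull ℝ {p, q, r} = (fun s : ℝ × ℝ => p + s.1 • (q - p) + s.2 • (r - p)) '' stdTri := by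
  apply Set.Subset.antisymm
  · apply convexHull_min
    · intro x hx
      simp only [Set.mem_insert_iff, Set.mem_singleton_iff] at hx
      rcases hx with rfl | rfl | rfl
      · exact ⟨(0, 0), by simp [stdTri], by simp⟩
      · exact ⟨(1, 0), by simp [stdTri], by simp⟩
      · exact ⟨(0, 1), by simp [stdTri], by simp⟩
    · rintro _ ⟨s, hs, rfl⟩ _ ⟨t, ht, rfl⟩ a b ha hb hab
      refine ⟨(a * s.1 + b * t.1, a * s.2 + b * t.2), ?_, ?_⟩
      · obtain ⟨h1, h2, h3⟩ := hs
        obtain ⟨h4, h5, h6⟩ := ht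
        refine ⟨by positivity, by positivity, ?_⟩
        simp only
        nlinarith [mul_le_mul_of_nonneg_left h3 ha, mul_le_mul_of_nonneg_left h6 hb]
      · obtain rfl : b = 1 - a := by linarith
        simp only
        module
  · rintro _ ⟨s, ⟨h1, h2, h3⟩, rfl⟩
    have hp : p ∈ convexHull ℝ ({p, q, r} : Set V) := subset_convexHull _ _ (by simp)
    have hq : q ∈ convexHull ℝ ({p, q, r} : Set V) := subset_convexHull _ _ (by simp)
    have hr : r ∈ convexHull ℝ ({p, q, r} : Set V) := subset_convexHull _ _ (by simp)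
    have := (convex_convexHull ℝ ({p, q, r} : Set V)).sum_mem (t := Finset.univ)
      (w := ![1 - s.1 - s.2, s.1, s.2]) (z := ![p, q, r])
      (by intro i _; fin_cases i <;> simp <;> linarith) (by simp [Fin.sum_univ_three]; ring)
      (by intro i _; fin_cases i <;> simpa)
    simp only [Fin.sum_univ_three] at this
    convert this using 1
    simp
    module

/-- area of a triangle -/
theorem area_triangle (p q r : E3) :
    μHE[2] (convexHull ℝ {p, q, r}) = ENNReal.ofReal (gram (q - p) (r - p) / 2) := by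
  rw [convexHull_triple, area_image, volume_stdTri, ← ENNReal.ofReal_mul (gram_nonneg _ _)]
  congr 1; ring

/-- area of a parallelogram -/
theorem area_parallelogram (c a b : E3) :
    μHE[2] {x : E3 | ∃ s ∈ Set.Icc (0 : ℝ) 1, ∃ t ∈ Set.Icc (0 : ℝ) 1, x = c + s • a + t • b} =
      ENNReal.ofReal (gram a b) := by
  have : {x : E3 | ∃ s ∈ Set.Icc (0 : ℝ) 1, ∃ t ∈ Set.Icc (0 : ℝ) 1, x = c + s • a + t • b} =
      (fun p : ℝ × ℝ => c + p.1 • a + p.2 • b) '' (Set.Icc 0 1 ×ˢ Set.Icc 0 1) := by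
    ext x
    constructor
    · rintro ⟨s, hs, t, ht, rfl⟩; exact ⟨(s, t), ⟨hs, ht⟩, rfl⟩
    · rintro ⟨p, ⟨hs, ht⟩, rfl⟩; exact ⟨p.1, hs, p.2, ht, rfl⟩
  rw [this, area_image, Measure.volume_eq_prod, Measure.prod_prod]
  simp

/-- the area spanned by the projections of `a`, `b` along the unit vector `u` -/
lemma gram_proj (a b u : E3) (hu : ‖u‖ = 1) :
    gram (a - inner ℝ a u • u) (b - inner ℝ b u • u) =
      |u 0 * (a 1 * b 2 - a 2 * b 1) + u 1 * (a 2 * b 0 - a 0 * b 2) +
        u 2 * (a 0 * b 1 - a 1 * b 0)| := by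
  rw [gram, ← Real.sqrt_sq_eq_abs]
  congr 1
  have h : u 0 ^ 2 + u 1 ^ 2 + u 2 ^ 2 = 1 := by
    have := EuclideanSpace.norm_sq_eq u
    rw [hu] at this
    simpa [Fin.sum_univ_three] using this.symm
  have e1 : ∀ a b : E3, inner ℝ (a - inner ℝ a u • u) (b - inner ℝ b u • u) =
      inner ℝ a b - inner ℝ a u * inner ℝ b u := by
    intro a b
    simp only [inner_sub_left, inner_sub_right, real_inner_smul_left, real_inner_smul_right,
      real_inner_self_eq_norm_sq, hu, real_inner_comm u b]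
    ring
  rw [← real_inner_self_eq_norm_sq, ← real_inner_self_eq_norm_sq, e1, e1, e1]
  simp only [PiLp.inner_apply, Fin.sum_univ_three, RCLike.inner_apply, conj_trivial]
  linear_combination (-((a 1 * b 2 - a 2 * b 1) ^ 2 + (a 2 * b 0 - a 0 * b 2) ^ 2 +
    (a 0 * b 1 - a 1 * b 0) ^ 2)) * h

end Crest.Agent.H0326
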