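import Crest.Agent.H0326.Area

set_option autoImplicit false

namespace Crest.Agent.H0326

open MeasureTheory
open scoped ENNReal

structure Tile where
  c : E2
  a : E2
  b : E2
  g : E2

def Tile.valid (T : Tile) : Prop := T.a ≠ 0 ∧ ‖T.b‖ = ‖T.a‖ ∧ inner ℝ T.a T.b = 0

def Tile.cyl (T : Tile) : Set (ℝ × E2) :=
  {z | ∃ x ∈ Set.Icc (0 : ℝ) 1, ∃ y ∈ Set.Icc (0 : ℝ) 1, z.2 = T.c + x • T.a + y • T.b + z.1 • T.g}

noncomputable def J (h : ℝ) (g : E2) : ℝ := 1 / √(1 + (g 0) ^ 2 + h ^ 2 * (g 1) ^ 2)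

lemma J_pos (h : ℝ) (g : E2) : 0 < J h g := by unfold J; positivity

lemma J_le_one (h : ℝ) (g : E2) : J h g ≤ 1 := by
  unfold J
  rw [div_le_one (by positivity)]
  apply Real.one_le_sqrt.2
  nlinarith [sq_nonneg (g 0), mul_nonneg (sq_nonneg h) (sq_nonneg (g 1))]

lemma continuous_J (h : ℝ) : Continuous (J h) := by
  unfold J
  exact continuous_const.div (by fun_prop) (fun g => by positivity)

noncomputable def Tile.wt (h : ℝ) (T : Tile) : ℝ := ‖T.a‖ ^ 2 * J h T.g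

/-- `S` is covered by finitely many tile cylinders of total weight at most `w` -/
def Cov (h : ℝ) (S : Set (ℝ × E2)) (w : ℝ) : Prop :=
  ∃ l : List Tile, (∀ T ∈ l, T.valid) ∧ (∀ z ∈ S, ∃ T ∈ l, z ∈ T.cyl) ∧
    (l.map (Tile.wt h)).sum ≤ w

variable {h : ℝ}

lemma Cov.mono {S S' : Set (ℝ × E2)} {w w' : ℝ} (H : Cov h S w) (hS : S' ⊆ S) (hw : w ≤ w') :
    Cov h S' w' := by
  obtain ⟨l, h1, h2, h3⟩ := H
  exact ⟨l, h1, fun z hz => h2 z (hS hz), h3.trans hw⟩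

lemma Cov.empty : Cov h ∅ 0 := ⟨[], by simp, by simp, by simp⟩

lemma Cov.union {S S' : Set (ℝ × E2)} {w w' : ℝ} (H : Cov h S w) (H' : Cov h S' w') :
    Cov h (S ∪ S') (w + w') := by
  obtain ⟨l, h1, h2, h3⟩ := H
  obtain ⟨l', h1', h2', h3'⟩ := H'
  refine ⟨l ++ l', ?_, ?_, ?_⟩
  · intro T hT
    rcases List.mem_append.1 hT with hT | hT
    exacts [h1 T hT, h1' T hT]
  · rintro z (hz | hz)
    · obtain ⟨T, hT, hz⟩ := h2 z hz; exact ⟨T, List.mem_append_left _ hT, hz⟩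
    · obtain ⟨T, hT, hz⟩ := h2' z hz; exact ⟨T, List.mem_append_right _ hT, hz⟩
  · rw [List.map_append, List.sum_append]; linarith

lemma Cov.biUnion {ι : Type*} (t : Finset ι) {S : ι → Set (ℝ × E2)} {w : ι → ℝ}
    (H : ∀ i ∈ t, Cov h (S i) (w i)) : Cov h (⋃ i ∈ t, S i) (∑ i ∈ t, w i) := by
  classical
  induction t using Finset.induction_on with
  | empty => simpa using Cov.empty
  | insert a t ha ih =>
    rw [Finset.set_biUnion_insert, Finset.sum_insert ha]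
    exact (H a (Finset.mem_insert_self _ _)).union
      (ih fun i hi => H i (Finset.mem_insert_of_mem hi))

lemma Cov.single (T : Tile) (hT : T.valid) : Cov h T.cyl (T.wt h) :=
  ⟨[T], by simpa using hT, fun z hz => ⟨T, by simp, hz⟩, by simp⟩

/-- locating a point in a grid -/
lemma exists_grid {σ W x : ℝ} (hσ : 0 < σ) (h0 : 0 ≤ x) (hx : x ≤ W) :
    ∃ k ∈ Finset.range (⌊W / σ⌋₊ + 1), (k : ℝ) * σ ≤ x ∧ x ≤ (k + 1) * σ ∧ (k : ℝ) * σ ≤ W := by
  refine ⟨⌊x / σ⌋₊, ?_, ?_, ?_, ?_⟩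
  · rw [Finset.mem_range, Nat.lt_succ_iff]
    exact Nat.floor_le_floor (div_le_div_of_nonneg_right hx hσ.le)
  · rw [← le_div_iff₀ hσ]; exact Nat.floor_le (by positivity)
  · rw [← div_le_iff₀ hσ]; exact (Nat.lt_floor_add_one _).le
  · have : (⌊x / σ⌋₊ : ℝ) * σ ≤ x := by rw [← le_div_iff₀ hσ]; exact Nat.floor_le (by positivity)
    linarith

lemma grid_count {σ W : ℝ} (hσ : 0 < σ) (hW : 0 ≤ W) :
    ((⌊W / σ⌋₊ + 1 : ℕ) : ℝ) * σ ≤ W + σ := by
  have : (⌊W / σ⌋₊ : ℝ) * σ ≤ W := by rw [← le_div_iff₀ hσ]; exact Nat.floor_le (by positivity)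
  push_cast; linarith

/-- one row of squares -/
lemma cov_row {e f : E2} (he : ‖e‖ = 1) (hf : ‖f‖ = 1) (hef : inner ℝ e f = 0) (o g : E2)
    {W σ : ℝ} (hW : 0 ≤ W) (hσ : 0 < σ) :
    Cov h {z | ∃ x ∈ Set.Icc (0 : ℝ) W, ∃ y ∈ Set.Icc (0 : ℝ) σ, z.2 = o + x • e + y • f + z.1 • g}
      ((W + σ) * σ * J h g) := by
  let T : ℕ → Tile := fun k => ⟨o + ((k : ℝ) * σ) • e, σ • e, σ • f, g⟩
  have hv : ∀ k, (T k).valid := fun k => by
    refine ⟨?_, ?_, ?_⟩
    · simp only [T]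
      exact smul_ne_zero hσ.ne' (by rintro rfl; simp at he)
    · simp [T, norm_smul, he, hf]
    · simp [T, inner_smul_left, inner_smul_right, hef]
  have H := Cov.biUnion (h := h) (Finset.range (⌊W / σ⌋₊ + 1)) (S := fun k => (T k).cyl)
    (w := fun k => (T k).wt h) (fun k _ => Cov.single _ (hv k))
  refine H.mono ?_ ?_
  · rintro z ⟨x, hx, y, hy, hz⟩
    obtain ⟨k, hk, h1, h2, -⟩ := exists_grid hσ hx.1 hx.2
    simp only [Set.mem_iUnion]
    refine ⟨k, hk, (x - k * σ) / σ, ⟨div_nonneg (by linarith) hσ.le, ?_⟩, y / σ,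
      ⟨div_nonneg hy.1 hσ.le, ?_⟩, ?_⟩
    · rw [div_le_one hσ]; linarith
    · rw [div_le_one hσ]; exact hy.2
    · rw [hz]
      simp only [T, smul_smul, div_mul_cancel₀ _ hσ.ne']
      module
  · have : ∀ k, (T k).wt h = σ * σ * J h g := fun k => by
      simp [T, Tile.wt, norm_smul, he, abs_of_pos hσ, pow_two]
    simp only [this, Finset.sum_const, Finset.card_range, nsmul_eq_mul]
    have h1 := grid_count hσ hW
    have h2 := J_pos h g
    calc _ = (((⌊W / σ⌋₊ + 1 : ℕ) : ℝ) * σ) * (σ * J h g) := by ring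
      _ ≤ (W + σ) * (σ * J h g) := by gcongr
      _ = _ := by ring

/-- a sheared column -/
lemma cov_column {e f : E2} (he : ‖e‖ = 1) (hf : ‖f‖ = 1) (hef : inner ℝ e f = 0) (q v : E2)
    {L α X Y Jm η : ℝ} (hL : 0 ≤ L) (hX : 0 ≤ X) (hY : 0 ≤ Y) (hη : 0 < η)
    (hJ : ∀ y, |y| ≤ Y → J h (v + (α * y) • e) ≤ Jm) :
    Cov h {z | |z.1| ≤ L ∧ ∃ x y : ℝ, |y| ≤ Y ∧ |x - z.1 * α * y| ≤ X ∧
      z.2 = q + x • e + y • f + z.1 • v} (4 * X * Y * Jm + η) := by
  have hJm : 0 ≤ Jm := (J_pos h _).le.trans (hJ 0 (by simpa using hY))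
  obtain ⟨σ, hσ, hσ'⟩ : ∃ σ : ℝ, 0 < σ ∧
      (2 * Y + σ) * ((2 * (X + L * |α| * σ) + σ) * Jm) ≤ 4 * X * Y * Jm + η := by
    have hc : Continuous fun σ : ℝ => (2 * Y + σ) * ((2 * (X + L * |α| * σ) + σ) * Jm) := by
      fun_prop
    have h0 : (fun σ : ℝ => (2 * Y + σ) * ((2 * (X + L * |α| * σ) + σ) * Jm)) 0 <
        4 * X * Y * Jm + η := by simp only; linarith
    have := hc.continuousAt.eventually (gt_mem_nhds h0)
    obtain ⟨σ, h1, h2⟩ := ((this.filter_mono nhdsWithin_le_nhds).and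
      (self_mem_nhdsWithin (s := Set.Ioi (0 : ℝ)))).exists
    exact ⟨σ, h2, h1.le⟩
  set X' := X + L * |α| * σ with hX'
  have hX'0 : 0 ≤ X' := by positivity
  let y₀ : ℕ → ℝ := fun k => -Y + k * σ
  let t := (Finset.range (⌊2 * Y / σ⌋₊ + 1)).filter (fun k : ℕ => (k : ℝ) * σ ≤ 2 * Y)
  have H := Cov.biUnion (h := h) t
    (S := fun k => {z | ∃ x ∈ Set.Icc (0 : ℝ) (2 * X'), ∃ y ∈ Set.Icc (0 : ℝ) σ,
      z.2 = (q + (-X') • e + y₀ k • f) + x • e + y • f + z.1 • (v + (α * y₀ k) • e)})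
    (w := fun k => (2 * X' + σ) * σ * J h (v + (α * y₀ k) • e))
    (fun k _ => cov_row he hf hef _ _ (by positivity) hσ)
  refine H.mono ?_ ?_
  · rintro z ⟨hz, x, y, hy, hx, hz2⟩
    rw [abs_le] at hy
    obtain ⟨k, hk, h1, h2, h3⟩ := exists_grid (W := 2 * Y) (x := y + Y) hσ (by linarith)
      (by linarith)
    simp only [Set.mem_iUnion]
    have hb : |z.1 * α * (y - y₀ k)| ≤ L * |α| * σ := by
      rw [abs_mul, abs_mul]
      have : |y - y₀ k| ≤ σ := by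
        rw [abs_le]; simp only [y₀]; constructor <;> linarith
      gcongr
    rw [abs_le] at hb hx
    refine ⟨k, Finset.mem_filter.2 ⟨hk, h3⟩, x - z.1 * α * y₀ k + X', ⟨?_, ?_⟩, y - y₀ k,
      ⟨?_, ?_⟩, ?_⟩
    · nlinarith
    · nlinarith
    · simp only [y₀]; linarith
    · simp only [y₀]; linarith
    · rw [hz2]; module
  · refine le_trans ?_ hσ'
    calc ∑ k ∈ t, (2 * X' + σ) * σ * J h (v + (α * y₀ k) • e)
        ≤ ∑ k ∈ t, (2 * X' + σ) * σ * Jm := by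
          apply Finset.sum_le_sum
          intro k hk
          have hk2 := (Finset.mem_filter.1 hk).2
          have : |y₀ k| ≤ Y := by
            rw [abs_le]; simp only [y₀]
            have : 0 ≤ (k : ℝ) * σ := by positivity
            constructor <;> linarith
          have := hJ _ this
          gcongr
      _ = (t.card * σ) * ((2 * X' + σ) * Jm) := by
          simp only [Finset.sum_const, nsmul_eq_mul]; ring
      _ ≤ (2 * Y + σ) * ((2 * X' + σ) * Jm) := by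
          have h1 := grid_count hσ (show 0 ≤ 2 * Y by positivity)
          have h2 : (t.card : ℝ) ≤ ((⌊2 * Y / σ⌋₊ + 1 : ℕ) : ℝ) := by
            exact_mod_cast (Finset.card_filter_le _ _).trans (by simp)
          have h3 : (t.card : ℝ) * σ ≤ 2 * Y + σ := by nlinarith
          gcongr

end Crest.Agent.H0326
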