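import Crest.Agent.H0326.Local

set_option autoImplicit false

namespace Crest.Agent.H0326

open MeasureTheory Filter Topology
open scoped ENNReal

variable {h : ℝ}

lemma exists_pos_of_eventually {p : ℝ → Prop} (H : ∀ᶠ x in 𝓝 (0 : ℝ), p x) :
    ∃ x, 0 < x ∧ p x := by
  obtain ⟨σ, h1, h2⟩ := ((H.filter_mono nhdsWithin_le_nhds).and
      (self_mem_nhdsWithin (s := Set.Ioi (0 : ℝ)))).exists
  exact ⟨σ, h2, h1⟩

lemma ev_lt {f : ℝ → ℝ} {c : ℝ} (hf : Continuous f) (h0 : f 0 < c) :
    ∀ᶠ x in 𝓝 (0 : ℝ), f x < c := hf.continuousAt.eventually (gt_mem_nhds h0)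

lemma cov_local {V : E2 → E2} {U : Set E2} (hU : IsOpen U) (hV : ContDiffOn ℝ 1 V U) {L : ℝ}
    (hL : 0 < L) {p₀ : E2} (hp₀ : p₀ ∈ U)
    (htr : LinearMap.trace ℝ _ (fderiv ℝ V p₀).toLinearMap = 0)
    (hdet : -(L ^ 2)⁻¹ < LinearMap.det (fderiv ℝ V p₀).toLinearMap ∧
      LinearMap.det (fderiv ℝ V p₀).toLinearMap ≤ 0) {ε : ℝ} (hε : 0 < ε) :
    ∃ r > 0, ∀ S, IsCompact S → S ⊆ Metric.closedBall p₀ r →
      ∀ η > 0, Cov h (Rul V L S) ((∫ p in S, (J h (V p) + ε)) + η) := by
  set A := fderiv ℝ V p₀ with hA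
  obtain ⟨e, f, α, β, F, hAe, hAf, hd⟩ := exists_frame A htr
  rw [hd] at hdet
  have h0 : 0 ≤ α * β := by linarith [hdet.2]
  have h1 : L ^ 2 * (α * β) ≤ 1 := by
    have : α * β ≤ (L ^ 2)⁻¹ := by linarith [hdet.1]
    calc L ^ 2 * (α * β) ≤ L ^ 2 * (L ^ 2)⁻¹ := by gcongr
      _ = 1 := by field_simp
  set J₀ := J h (V p₀) with hJ₀
  have hJ₀pos : 0 < J₀ := J_pos _ _
  obtain ⟨κ, hκ, hκ'⟩ := exists_pos_of_eventually
    (ev_lt (f := fun κ => (1 + κ) ^ 2 * (J₀ + ε / 4)) (c := J₀ + ε / 2) (by fun_prop)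
      (by linarith))
  obtain ⟨ρ, hρ, hρ'⟩ := Metric.continuous_iff.1 (continuous_J h) (V p₀) (ε / 4) (by positivity)
  obtain ⟨θ, hθ, hθ1, hθ2⟩ := exists_pos_of_eventually
    ((ev_lt (f := fun θ => θ) (c := 1) (by fun_prop) (by simp)).and
     (ev_lt (f := fun θ => L * |β| * θ) (c := κ / 2) (by fun_prop) (by simpa using hκ)))
  obtain ⟨ω, hω, hω1, hω2⟩ := exists_pos_of_eventually
    ((ev_lt (f := fun ω => 2 * L * ω) (c := κ / 2) (by fun_prop) (by simpa using hκ)).and
     (ev_lt (f := fun ω => 2 * (L + L ^ 2 * |α|) * ω) (c := κ * θ) (by fun_prop)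
       (by simpa using mul_pos hκ hθ)))
  have hUn : U ∈ 𝓝 p₀ := hU.mem_nhds hp₀
  have c1 : ContinuousAt (fderiv ℝ V) p₀ :=
    (hV.continuousOn_fderiv_of_isOpen hU le_rfl).continuousAt hUn
  have c2 : ContinuousAt V p₀ := hV.continuousOn.continuousAt hUn
  have hev : ∀ᶠ p in 𝓝 p₀, p ∈ U ∧ dist (fderiv ℝ V p) A < ω ∧ dist (V p) (V p₀) < ρ / 2 :=
    (show ∀ᶠ p in 𝓝 p₀, p ∈ U from hUn).and ((Metric.tendsto_nhds.1 c1 ω hω).and
      (Metric.tendsto_nhds.1 c2 _ (by positivity)))
  obtain ⟨r₂, hr₂, hball⟩ := Metric.nhds_basis_closedBall.eventually_iff.1 hev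
  refine ⟨r₂ / 2, by positivity, fun S hS hSb η hη => ?_⟩
  have hSb2 : S ⊆ Metric.closedBall p₀ r₂ :=
    hSb.trans (Metric.closedBall_subset_closedBall (by linarith))
  have hth : ∀ᶠ M in 𝓝 (0 : ℝ), (J₀ + ε / 2) * (volume (Metric.cthickening (4 * M) S)).toReal <
      (J₀ + ε / 2) * (volume S).toReal + η / 2 := by
    have t1 : Tendsto (fun M : ℝ => 4 * M) (𝓝 0) (𝓝 0) := by
      have : Continuous fun M : ℝ => 4 * M := by fun_prop
      simpa using this.tendsto 0
    have t2 := (ENNReal.tendsto_toReal hS.measure_lt_top.ne).comp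
      ((tendsto_measure_cthickening_of_isCompact (μ := volume) hS).comp t1)
    exact (t2.const_mul (J₀ + ε / 2)).eventually (gt_mem_nhds (by linarith))
  obtain ⟨M, hM, hM1, hM2, hM3⟩ := exists_pos_of_eventually (hth.and
    ((ev_lt (f := fun M => 2 * M) (c := r₂ / 2) (by fun_prop) (by simpa using hr₂)).and
     (ev_lt (f := fun M => |α| * ((1 + κ) * M)) (c := ρ / 2) (by fun_prop) (by simpa using hρ))))
  set δ := θ * M with hδdef
  have hδ : 0 < δ := by positivity
  have hδM : δ ≤ M := by rw [hδdef]; nlinarith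
  obtain ⟨t, q, ht1, ht2, ht3⟩ := exists_cells F hS hδ hM
  set τ := ω * (δ + M) with hτdef
  have hτ : 0 ≤ τ := by positivity
  have hτ2 : τ ≤ 2 * ω * M := by rw [hτdef]; nlinarith
  have hX : δ + L * τ + L ^ 2 * |α| * τ ≤ δ * (1 + κ) := by
    have : (L + L ^ 2 * |α|) * τ ≤ (L + L ^ 2 * |α|) * (2 * ω * M) := by gcongr
    have h2 : 2 * (L + L ^ 2 * |α|) * ω * M ≤ κ * θ * M := by gcongr
    rw [hδdef]; nlinarith
  have hY : M + L * |β| * δ + L * τ ≤ (1 + κ) * M := by
    have : L * τ ≤ L * (2 * ω * M) := by gcongr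
    have h2 : 2 * L * ω * M ≤ κ / 2 * M := by gcongr
    have h3 : L * |β| * θ * M ≤ κ / 2 * M := by gcongr
    rw [hδdef]; nlinarith
  have H := Cov.biUnion (h := h) t
    (S := fun i => Rul V L {p ∈ S | ∃ u v : ℝ, |u| ≤ δ ∧ |v| ≤ M ∧ p = q i + u • e + v • f})
    (w := fun _ => 4 * δ * M * (J₀ + ε / 2) + η / (2 * (t.card + 1))) (fun i hi => by
      obtain ⟨p₁, hp₁, hd₁⟩ := ht2 i hi
      have hq : q i ∈ Metric.closedBall p₀ r₂ := by
        have := hSb hp₁
        rw [Metric.mem_closedBall] at this ⊢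
        have := dist_triangle (q i) p₁ p₀
        linarith
      refine (cov_cell F hAe hAf hL h0 h1 V (q i) hδ.le hM.le hτ
        (show 0 < η / (2 * (t.card + 1)) by positivity) _ (Jm := J₀ + ε / 4) ?_ ?_).mono le_rfl ?_
      · rintro p ⟨hp, u, v, hu, hv, hpq⟩
        refine ⟨?_, u, v, hu, hv, hpq⟩
        have := (convex_closedBall p₀ r₂).norm_image_sub_le_of_norm_fderiv_le' (f := V) (φ := A)
          (C := ω) (fun x hx => (hV.differentiableOn one_ne_zero).differentiableAt
            (hU.mem_nhds (hball hx).1))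
          (fun x hx => by rw [← dist_eq_norm]; exact (hball hx).2.1.le) hq (hSb2 hp)
        refine this.trans ?_
        rw [hτdef]
        gcongr
        rw [hpq, show q i + u • e + v • f - q i = u • e + v • f by module]
        refine (norm_add_le _ _).trans ?_
        rw [norm_smul, norm_smul, F.he, F.hf, Real.norm_eq_abs, Real.norm_eq_abs]
        linarith
      · intro y hy
        have h2 : dist (V (q i) + (α * y) • e) (V p₀) < ρ := by
          have a1 := (hball hq).2.2
          have a2 : dist (V (q i) + (α * y) • e) (V (q i)) ≤ |α| * ((1 + κ) * M) := by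
            rw [dist_eq_norm, add_sub_cancel_left, norm_smul, F.he, mul_one, Real.norm_eq_abs,
              abs_mul]
            gcongr
            linarith
          have := dist_triangle (V (q i) + (α * y) • e) (V (q i)) (V p₀)
          linarith
        have := hρ' _ h2
        rw [Real.dist_eq, abs_lt] at this
        linarith
      · have : 4 * (δ + L * τ + L ^ 2 * |α| * τ) * (M + L * |β| * δ + L * τ) * (J₀ + ε / 4) ≤
            4 * (δ * (1 + κ)) * ((1 + κ) * M) * (J₀ + ε / 4) := by gcongr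
        have h2 : 4 * δ * M * ((1 + κ) ^ 2 * (J₀ + ε / 4)) ≤ 4 * δ * M * (J₀ + ε / 2) := by gcongr
        nlinarith)
  refine H.mono ?_ ?_
  · rintro z ⟨p, hp, hz⟩
    obtain ⟨i, hi, hu⟩ := ht1 p hp
    simp only [Set.mem_iUnion]
    exact ⟨i, hi, p, ⟨hp, hu⟩, hz⟩
  · simp only [Finset.sum_const, nsmul_eq_mul]
    have a1 : (volume (Metric.cthickening (2 * δ + 2 * M) S)).toReal ≤
        (volume (Metric.cthickening (4 * M) S)).toReal :=
      ENNReal.toReal_mono hS.isBounded.cthickening.measure_lt_top.ne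
        (measure_mono (Metric.cthickening_mono (by linarith) S))
    have a2 : (t.card : ℝ) * (η / (2 * (t.card + 1))) ≤ η / 2 := by
      rw [mul_div_assoc', div_le_div_iff₀ (by positivity) (by positivity)]
      linarith
    have a3 : (J₀ + ε / 2) * (t.card * (4 * δ * M)) ≤
        (J₀ + ε / 2) * (volume (Metric.cthickening (4 * M) S)).toReal := by
      exact mul_le_mul_of_nonneg_left (ht3.trans a1) (by positivity)
    have a4 : (J₀ + ε / 2) * (volume S).toReal ≤ ∫ p in S, (J h (V p) + ε) := by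
      have hc : ContinuousOn (fun p => J h (V p) + ε) S :=
        ((continuous_J h).comp_continuousOn (hV.continuousOn.mono
          fun x hx => (hball (hSb2 hx)).1)).add continuousOn_const
      have := setIntegral_mono_on (μ := volume) (s := S) (f := fun _ => J₀ + ε / 2)
        (g := fun p => J h (V p) + ε) (continuousOn_const.integrableOn_compact hS)
        (hc.integrableOn_compact hS) hS.measurableSet (fun p hp => by
          have := hρ' (V p) ((hball (hSb2 hp)).2.2.trans (by linarith))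
          rw [Real.dist_eq, abs_lt] at this
          linarith)
      rw [setIntegral_const, smul_eq_mul, mul_comm] at this
      exact this
    linarith

lemma Rul_union (V : E2 → E2) (L : ℝ) (S T : Set E2) :
    Rul V L (S ∪ T) ⊆ Rul V L S ∪ Rul V L T := by
  rintro z ⟨p, hp | hp, hz⟩
  exacts [Or.inl ⟨p, hp, hz⟩, Or.inr ⟨p, hp, hz⟩]

theorem cov_global {D : Set E2} (hD : IsCompact D) {V : E2 → E2} {U : Set E2} (hU : IsOpen U)
    (hDU : D ⊆ U) (hV : ContDiffOn ℝ 1 V U) {L : ℝ} (hL : 0 < L)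
    (htr : ∀ p ∈ D, LinearMap.trace ℝ _ (fderiv ℝ V p).toLinearMap = 0)
    (hdet : ∀ p ∈ D, -(L ^ 2)⁻¹ < LinearMap.det (fderiv ℝ V p).toLinearMap ∧
      LinearMap.det (fderiv ℝ V p).toLinearMap ≤ 0) {ε : ℝ} (hε : 0 < ε) :
    Cov h (Rul V L D) ((∫ p in D, J h (V p)) + ε) := by
  classical
  obtain ⟨ε', hε', hε2⟩ := exists_pos_of_eventually
    (ev_lt (f := fun ε' => (volume D).toReal * ε') (c := ε / 2) (by fun_prop) (by simpa using hε))
  choose! r hr hr' using fun p (hp : p ∈ D) =>
    cov_local (h := h) hU hV hL (hDU hp) (htr p hp) (hdet p hp) hε'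
  have hint : ∀ S, IsCompact S → S ⊆ D → IntegrableOn (fun p => J h (V p) + ε') S := by
    intro S hS hSD
    exact (((continuous_J h).comp_continuousOn (hV.continuousOn.mono
      (hSD.trans hDU))).add continuousOn_const).integrableOn_compact hS
  have key : ∀ t : Finset E2, (∀ p ∈ t, p ∈ D) → ∀ S, IsCompact S → S ⊆ D →
      S ⊆ ⋃ p ∈ t, Metric.ball p (r p) →
      ∀ η > 0, Cov h (Rul V L S) ((∫ p in S, (J h (V p) + ε')) + η) := by
    intro t
    induction t using Finset.induction_on with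
    | empty =>
      intro _ S _ _ hS η hη
      have : S = ∅ := by simpa using hS
      subst this
      exact Cov.empty.mono (by rintro z ⟨p, hp, -⟩; exact hp) (by simpa using hη.le)
    | insert a t ha ih =>
      intro htD S hS hSD hSt η hη
      have haD : a ∈ D := htD a (Finset.mem_insert_self _ _)
      have c1 : IsCompact (S ∩ Metric.closedBall a (r a)) := hS.inter_right Metric.isClosed_closedBall
      have c2 : IsCompact (S \ Metric.ball a (r a)) := hS.diff Metric.isOpen_ball
      have H1 := hr' a haD _ c1 Set.inter_subset_right (η / 2) (by positivity)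
      have H2 := ih (fun p hp => htD p (Finset.mem_insert_of_mem hp)) _ c2
        (Set.sdiff_subset.trans hSD) (by
          rintro x ⟨hx, hx2⟩
          have := hSt hx
          rw [Finset.set_biUnion_insert] at this
          exact this.resolve_left hx2) (η / 2) (by positivity)
      have e : S = (S ∩ Metric.closedBall a (r a)) ∪ (S \ Metric.ball a (r a)) := by
        ext x
        constructor
        · intro hx
          by_cases hb : x ∈ Metric.ball a (r a)
          · exact Or.inl ⟨hx, Metric.ball_subset_closedBall hb⟩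
          · exact Or.inr ⟨hx, hb⟩
        · rintro (hx | hx) <;> exact hx.1
      have hdis : AEDisjoint volume (S ∩ Metric.closedBall a (r a)) (S \ Metric.ball a (r a)) := by
        refine measure_mono_null ?_ (Measure.addHaar_sphere volume a (r a))
        rintro x ⟨⟨-, h1⟩, -, h2⟩
        rw [Metric.mem_closedBall] at h1
        rw [Metric.mem_ball, not_lt] at h2
        exact le_antisymm h1 h2
      have hI := setIntegral_union₀ hdis c2.measurableSet.nullMeasurableSet
        (hint _ c1 (Set.inter_subset_left.trans hSD)) (hint _ c2 (Set.sdiff_subset.trans hSD))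
      rw [← e] at hI
      refine (H1.union H2).mono ?_ (by linarith)
      conv_lhs => rw [e]
      exact Rul_union _ _ _ _
  obtain ⟨t, ht, htc⟩ := hD.elim_nhds_subcover (fun p => Metric.ball p (r p))
    (fun p hp => Metric.ball_mem_nhds p (hr p hp))
  refine (key t ht D hD le_rfl htc (ε / 2) (by positivity)).mono le_rfl ?_
  have hi : IntegrableOn (fun p => J h (V p)) D :=
    ((continuous_J h).comp_continuousOn (hV.continuousOn.mono hDU)).integrableOn_compact hD
  rw [integral_add hi (continuousOn_const.integrableOn_compact hD), setIntegral_const, smul_eq_mul]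
  have : (volume D).toReal = volume.real D := rfl
  rw [this] at hε2
  linarith

theorem tiles_fin {S : Set (ℝ × E2)} {w : ℝ} (H : Cov h S w) :
    ∃ (k : ℕ) (T : Fin k → Tile), (∀ i, (T i).valid) ∧ S ⊆ ⋃ i, (T i).cyl ∧
      ∑ i, (T i).wt h ≤ w := by
  obtain ⟨l, h1, h2, h3⟩ := H
  refine ⟨l.length, l.get, fun i => h1 _ (List.get_mem l i), ?_, ?_⟩
  · intro z hz
    obtain ⟨T, hT, hz⟩ := h2 z hz
    obtain ⟨i, rfl⟩ := List.get_of_mem hT
    exact Set.mem_iUnion.2 ⟨i, hz⟩
  · rw [← List.sum_ofFn]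
    have : List.ofFn (fun i => (l.get i).wt h) = l.map (Tile.wt h) := by
      conv_rhs => rw [← List.ofFn_get l, List.map_ofFn]
      rfl
    rw [this]; exact h3

end Crest.Agent.H0326
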