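import Crest.Agent.H0326.Cover

set_option autoImplicit false

namespace Crest.Agent.H0326

open MeasureTheory
open scoped ENNReal

/-- an orthonormal frame of the plane -/
structure Frame (e f : E2) : Prop where
  he : ‖e‖ = 1
  hf : ‖f‖ = 1
  hef : inner ℝ e f = 0
  decomp : ∀ x : E2, x = (inner ℝ x e) • e + (inner ℝ x f) • f
  det : |e 0 * f 1 - e 1 * f 0| = 1

lemma frame_of {c s : ℝ} (h : c ^ 2 + s ^ 2 = 1) : Frame !₂[c, s] !₂[-s, c] where
  he := by rw [EuclideanSpace.norm_eq]; simp [Fin.sum_univ_two, h]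
  hf := by rw [EuclideanSpace.norm_eq]; simp [Fin.sum_univ_two, add_comm, h]
  hef := by simp [PiLp.inner_apply, Fin.sum_univ_two]; ring
  decomp x := by
    ext i
    fin_cases i <;> simp [PiLp.inner_apply, Fin.sum_univ_two]
    · linear_combination (-x 0) * h
    · linear_combination (-x 1) * h
  det := by
    simp
    rw [show c * c + s * s = 1 by linarith, abs_one]

lemma exists_frame (A : E2 →L[ℝ] E2) (htr : LinearMap.trace ℝ _ A.toLinearMap = 0) :
    ∃ (e f : E2) (α β : ℝ), Frame e f ∧ A e = β • f ∧ A f = α • e ∧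
      LinearMap.det A.toLinearMap = -(α * β) := by
  let b := (EuclideanSpace.basisFun (Fin 2) ℝ).toBasis
  set a00 := A (EuclideanSpace.single 0 1) 0 with h00
  set a01 := A (EuclideanSpace.single 1 1) 0 with h01
  set a10 := A (EuclideanSpace.single 0 1) 1 with h10
  set a11 := A (EuclideanSpace.single 1 1) 1 with h11
  have hM : LinearMap.toMatrix b b A.toLinearMap = !![a00, a01; a10, a11] := by
    ext i j
    fin_cases i <;> fin_cases j <;> simp [LinearMap.toMatrix_apply, b, h00, h01, h10, h11]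
  have ht : a00 + a11 = 0 := by
    rw [LinearMap.trace_eq_matrix_trace ℝ b, hM] at htr
    simpa using htr
  have hd : LinearMap.det A.toLinearMap = a00 * a11 - a01 * a10 := by
    rw [← LinearMap.det_toMatrix b, hM, Matrix.det_fin_two_of]
  have hA : ∀ x : E2, A x = !₂[a00 * x 0 + a01 * x 1, a10 * x 0 + a11 * x 1] := by
    intro x
    have : x = x 0 • EuclideanSpace.single 0 1 + x 1 • EuclideanSpace.single 1 1 := by
      ext i; fin_cases i <;> simp
    conv_lhs => rw [this]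
    ext i
    fin_cases i <;> simp [h00, h01, h10, h11] <;> ring
  obtain ⟨t, ht'⟩ : ∃ t : ℝ, a00 * (Real.cos t ^ 2 - Real.sin t ^ 2) +
      (a01 + a10) * (Real.cos t * Real.sin t) = 0 := by
    have hc : Continuous fun t : ℝ => a00 * (Real.cos t ^ 2 - Real.sin t ^ 2) +
      (a01 + a10) * (Real.cos t * Real.sin t) := by fun_prop
    rcases le_total 0 a00 with h | h
    · exact intermediate_value_univ (Real.pi / 2) 0 hc
        (show (0 : ℝ) ∈ Set.Icc _ _ by simp [h])
    · exact intermediate_value_univ 0 (Real.pi / 2) hc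
        (show (0 : ℝ) ∈ Set.Icc _ _ by simp [h])
  have hcs := Real.cos_sq_add_sin_sq t
  generalize Real.cos t = c at *
  generalize Real.sin t = s at *
  clear_value a00 a01 a10 a11
  obtain rfl : a11 = -a00 := by linarith
  refine ⟨!₂[c, s], !₂[-s, c], a01 * c ^ 2 - a10 * s ^ 2 - 2 * a00 * c * s,
    a10 * c ^ 2 - a01 * s ^ 2 - 2 * a00 * c * s, frame_of hcs, ?_, ?_, ?_⟩
  · rw [hA]
    ext i
    fin_cases i <;> simp
    · linear_combination c * ht' - (a00 * c + a01 * s) * hcs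
    · linear_combination s * ht' - (a10 * c - a00 * s) * hcs
  · rw [hA]
    ext i
    fin_cases i <;> simp
    · linear_combination s * ht' - (a01 * c - a00 * s) * hcs
    · linear_combination (-c) * ht' - (-a10 * s - a00 * c) * hcs
  · rw [hd]
    linear_combination (-(a00 * (c ^ 2 - s ^ 2) + (a01 + a10) * (c * s))) * ht' -
      (-a00 ^ 2 - a01 * a10) * (c ^ 2 + s ^ 2 + 1) * hcs

/-- the ruled set -/
def Rul (V : E2 → E2) (L : ℝ) (S : Set E2) : Set (ℝ × E2) :=
  {z | ∃ p ∈ S, |z.1| ≤ L ∧ z.2 = p + z.1 • V p}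

variable {h : ℝ}

lemma cov_cell {e f : E2} (F : Frame e f) {A : E2 →L[ℝ] E2} {α β : ℝ} (hAe : A e = β • f)
    (hAf : A f = α • e) {L : ℝ} (hL : 0 < L) (h0 : 0 ≤ α * β) (h1 : L ^ 2 * (α * β) ≤ 1)
    (V : E2 → E2) (q : E2) {δ M τ Jm η : ℝ} (hδ : 0 ≤ δ) (hM : 0 ≤ M) (hτ : 0 ≤ τ) (hη : 0 < η)
    (S : Set E2) (hS : ∀ p ∈ S, ‖V p - V q - A (p - q)‖ ≤ τ ∧
      ∃ u v : ℝ, |u| ≤ δ ∧ |v| ≤ M ∧ p = q + u • e + v • f)
    (hJ : ∀ y, |y| ≤ M + L * |β| * δ + L * τ → J h (V q + (α * y) • e) ≤ Jm) :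
    Cov h (Rul V L S) (4 * (δ + L * τ + L ^ 2 * |α| * τ) * (M + L * |β| * δ + L * τ) * Jm + η) := by
  refine (cov_column F.he F.hf F.hef q (V q) hL.le (by positivity) (by positivity) hη hJ).mono
    ?_ le_rfl
  rintro ⟨s, ξ⟩ ⟨p, hp, hs, hz⟩
  simp only at hs hz
  obtain ⟨herr, u, v, hu, hv, hpq⟩ := hS p hp
  set r := V p - V q - A (p - q) with hr
  have r1 : |inner ℝ r e| ≤ τ := (abs_real_inner_le_norm _ _).trans (by rw [F.he]; linarith)
  have r2 : |inner ℝ r f| ≤ τ := (abs_real_inner_le_norm _ _).trans (by rw [F.hf]; linarith)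
  have hV : V p = V q + (u * β) • f + (v * α) • e + (inner ℝ r e) • e + (inner ℝ r f) • f := by
    have e1 : A (p - q) = (u * β) • f + (v * α) • e := by
      rw [hpq, show q + u • e + v • f - q = u • e + v • f by module, map_add, map_smul, map_smul,
        hAe, hAf, smul_smul, smul_smul]
    have e2 := F.decomp r
    rw [add_assoc, ← e2, hr, e1]
    module
  generalize inner ℝ r e = r₁ at *
  generalize inner ℝ r f = r₂ at *
  refine ⟨hs, u + s * (v * α) + s * r₁, v + s * (u * β) + s * r₂, ?_, ?_, ?_⟩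
  · have a1 : |s * (u * β)| ≤ L * |β| * δ := by
      rw [abs_mul, abs_mul, mul_assoc, mul_comm |β|]; gcongr
    have a2 : |s * r₂| ≤ L * τ := by rw [abs_mul]; gcongr
    calc _ ≤ |v| + |s * (u * β)| + |s * r₂| := abs_add_three _ _ _
      _ ≤ _ := by linarith
  · have e : u + s * (v * α) + s * r₁ - s * α * (v + s * (u * β) + s * r₂) =
        u * (1 - s ^ 2 * (α * β)) + s * r₁ + -(s ^ 2 * α * r₂) := by ring
    have hs2 : s ^ 2 ≤ L ^ 2 := by rw [← sq_abs s]; gcongr
    have a1 : |u * (1 - s ^ 2 * (α * β))| ≤ δ := by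
      rw [abs_mul]
      have : |1 - s ^ 2 * (α * β)| ≤ 1 := by
        rw [abs_le]
        have := mul_le_mul_of_nonneg_right hs2 h0
        have := mul_nonneg (sq_nonneg s) h0
        constructor <;> linarith
      calc _ ≤ δ * 1 := by gcongr
        _ = δ := mul_one _
    have a2 : |s * r₁| ≤ L * τ := by rw [abs_mul]; gcongr
    have a3 : |-(s ^ 2 * α * r₂)| ≤ L ^ 2 * |α| * τ := by
      rw [abs_neg, abs_mul, abs_mul, abs_of_nonneg (sq_nonneg s)]; gcongr
    simp only
    rw [e]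
    exact (abs_add_three _ _ _).trans (by linarith)
  · simp only
    rw [hz, hV, hpq]
    module

lemma floor_cell {a x : ℝ} (ha : 0 < a) : |x - (2 * (⌊x / (2 * a)⌋ : ℝ) + 1) * a| ≤ a := by
  have h1 := Int.floor_le (x / (2 * a))
  have h2 := Int.lt_floor_add_one (x / (2 * a))
  rw [le_div_iff₀ (by positivity)] at h1
  rw [div_lt_iff₀ (by positivity)] at h2
  rw [abs_le]
  constructor <;> nlinarith

lemma exists_cells {e f : E2} (F : Frame e f) {S : Set E2} (hS : IsCompact S) {δ M : ℝ}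
    (hδ : 0 < δ) (hM : 0 < M) :
    ∃ (t : Finset (ℤ × ℤ)) (q : ℤ × ℤ → E2),
      (∀ p ∈ S, ∃ i ∈ t, ∃ u v : ℝ, |u| ≤ δ ∧ |v| ≤ M ∧ p = q i + u • e + v • f) ∧
      (∀ i ∈ t, ∃ p ∈ S, dist (q i) p ≤ δ + M) ∧
      (t.card : ℝ) * (4 * δ * M) ≤ (volume (Metric.cthickening (2 * δ + 2 * M) S)).toReal := by
  let ix : E2 → ℤ × ℤ := fun x => (⌊inner ℝ x e / (2 * δ)⌋, ⌊inner ℝ x f / (2 * M)⌋)
  let q : ℤ × ℤ → E2 := fun i => ((2 * (i.1 : ℝ) + 1) * δ) • e + ((2 * (i.2 : ℝ) + 1) * M) • f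
  have hq : ∀ x : E2, ∃ u v : ℝ, |u| ≤ δ ∧ |v| ≤ M ∧ x = q (ix x) + u • e + v • f := by
    intro x
    refine ⟨_, _, floor_cell (x := inner ℝ x e) hδ, floor_cell (x := inner ℝ x f) hM, ?_⟩
    conv_lhs => rw [F.decomp x]
    simp only [q, ix]
    module
  have hd : ∀ x : E2, dist (q (ix x)) x ≤ δ + M := by
    intro x
    obtain ⟨u, v, hu, hv, hx⟩ := hq x
    rw [dist_comm, dist_eq_norm]
    have : x - q (ix x) = u • e + v • f := by
      rw [sub_eq_iff_eq_add]; conv_lhs => rw [hx]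
      module
    rw [this]
    refine (norm_add_le _ _).trans ?_
    rw [norm_smul, norm_smul, F.he, F.hf, Real.norm_eq_abs, Real.norm_eq_abs]
    linarith
  obtain ⟨R, hR⟩ := hS.isBounded.exists_norm_le
  have hfin : (ix '' S).Finite := by
    refine ((Set.finite_Icc ⌊-R / (2 * δ)⌋ ⌊R / (2 * δ)⌋).prod
      (Set.finite_Icc ⌊-R / (2 * M)⌋ ⌊R / (2 * M)⌋)).subset ?_
    rintro _ ⟨x, hx, rfl⟩
    have a1 : |inner ℝ x e| ≤ R :=
      (abs_real_inner_le_norm _ _).trans (by rw [F.he, mul_one]; exact hR x hx)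
    have a2 : |inner ℝ x f| ≤ R :=
      (abs_real_inner_le_norm _ _).trans (by rw [F.hf, mul_one]; exact hR x hx)
    rw [abs_le] at a1 a2
    refine ⟨⟨?_, ?_⟩, ?_, ?_⟩ <;> apply Int.floor_le_floor <;>
      apply div_le_div_of_nonneg_right _ (by positivity) <;> linarith
  refine ⟨hfin.toFinset, q, ?_, ?_, ?_⟩
  · intro p hp
    exact ⟨ix p, hfin.mem_toFinset.2 ⟨p, hp, rfl⟩, hq p⟩
  · intro i hi
    obtain ⟨p, hp, rfl⟩ := hfin.mem_toFinset.1 hi
    exact ⟨p, hp, hd p⟩
  · have hm : Measurable ix := by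
      refine Measurable.prodMk ?_ ?_ <;> apply Int.measurable_floor.comp <;> fun_prop
    have hcell : ∀ i, ENNReal.ofReal (4 * δ * M) ≤ volume (ix ⁻¹' {i}) := by
      intro i
      have h1 := volume_image_plane ((2 * (i.1 : ℝ) * δ) • e + (2 * (i.2 : ℝ) * M) • f)
        ((2 * δ) • e) ((2 * M) • f) (Set.Ico 0 1 ×ˢ Set.Ico 0 1)
      have h2 : |((2 * δ) • e) 0 * ((2 * M) • f) 1 - ((2 * δ) • e) 1 * ((2 * M) • f) 0| =
          4 * δ * M := by
        have : ((2 * δ) • e) 0 * ((2 * M) • f) 1 - ((2 * δ) • e) 1 * ((2 * M) • f) 0 =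
            (4 * δ * M) * (e 0 * f 1 - e 1 * f 0) := by simp; ring
        rw [this, abs_mul, F.det, abs_of_pos (by positivity), mul_one]
      rw [h2, Measure.volume_eq_prod, Measure.prod_prod] at h1
      simp only [Real.volume_Ico, sub_zero, ENNReal.ofReal_one, mul_one] at h1
      rw [← h1]
      apply measure_mono
      rintro _ ⟨⟨u, v⟩, ⟨hu, hv⟩, rfl⟩
      simp only [Set.mem_preimage, Set.mem_singleton_iff, ix]
      have ee : inner ℝ e e = (1 : ℝ) := by rw [real_inner_self_eq_norm_sq, F.he]; norm_num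
      have ff : inner ℝ f f = (1 : ℝ) := by rw [real_inner_self_eq_norm_sq, F.hf]; norm_num
      have fe : inner ℝ f e = (0 : ℝ) := by rw [real_inner_comm, F.hef]
      simp only [inner_add_left, real_inner_smul_left, ee, ff, fe, F.hef]
      ext
      · simp only
        rw [Int.floor_eq_iff]
        have : (2 * (i.1 : ℝ) * δ * 1 + 2 * (i.2 : ℝ) * M * 0 + u * (2 * δ * 1) +
          v * (2 * M * 0)) / (2 * δ) = i.1 + u := by field_simp; ring
        rw [this]
        exact ⟨by linarith [hu.1], by linarith [hu.2]⟩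
      · simp only
        rw [Int.floor_eq_iff]
        have : (2 * (i.1 : ℝ) * δ * 0 + 2 * (i.2 : ℝ) * M * 1 + u * (2 * δ * 0) +
          v * (2 * M * 1)) / (2 * M) = i.2 + v := by field_simp; ring
        rw [this]
        exact ⟨by linarith [hv.1], by linarith [hv.2]⟩
    have hsum : (hfin.toFinset.card : ℝ≥0∞) * ENNReal.ofReal (4 * δ * M) ≤
        volume (Metric.cthickening (2 * δ + 2 * M) S) := by
      calc _ = ∑ i ∈ hfin.toFinset, ENNReal.ofReal (4 * δ * M) := by simp
        _ ≤ ∑ i ∈ hfin.toFinset, volume (ix ⁻¹' {i}) := Finset.sum_le_sum fun i _ => hcell i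
        _ = volume (ix ⁻¹' (hfin.toFinset : Set (ℤ × ℤ))) :=
            sum_measure_preimage_singleton _ (fun i _ => hm (measurableSet_singleton i))
        _ ≤ _ := by
          apply measure_mono
          intro x hx
          simp only [Set.Finite.coe_toFinset, Set.mem_preimage] at hx
          obtain ⟨p, hp, hpx⟩ := hx
          apply Metric.mem_cthickening_of_dist_le x p _ _ hp
          have a1 := hd x
          have a2 := hd p
          rw [hpx] at a2
          have := dist_triangle_left x p (q (ix x))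
          linarith
    have hfin2 : volume (Metric.cthickening (2 * δ + 2 * M) S) ≠ ⊤ :=
      hS.isBounded.cthickening.measure_lt_top.ne
    have := ENNReal.toReal_mono hfin2 hsum
    rwa [ENNReal.toReal_mul, ENNReal.toReal_natCast, ENNReal.toReal_ofReal (by positivity)] at this

end Crest.Agent.H0326
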