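import Crest.Agent.H0326.Global

set_option autoImplicit false

namespace Crest.Agent.H0326

open MeasureTheory Filter Topology
open scoped ENNReal

/-- orthogonal projection along a unit vector -/
noncomputable def prj (u y : E3) : E3 := y - inner ℝ y u • u

lemma inner_prj {u : E3} (hu : ‖u‖ = 1) (y : E3) : inner ℝ (prj u y) u = 0 := by
  simp [prj, inner_sub_left, real_inner_smul_left, hu]

lemma prj_of_inner {u y : E3} (h : inner ℝ y u = 0) : prj u y = y := by simp [prj, h]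

lemma prj_add_smul {u : E3} (hu : ‖u‖ = 1) (y : E3) (t : ℝ) : prj u (y + t • u) = prj u y := by
  simp only [prj, inner_add_left, real_inner_smul_left, real_inner_self_eq_norm_sq, hu]
  module

lemma prj_comb (u c a b : E3) (s t : ℝ) :
    prj u (c + s • a + t • b) = prj u c + s • prj u a + t • prj u b := by
  simp only [prj, inner_add_left, real_inner_smul_left]
  module

lemma frame_decomp {a b : E2} (ha : a ≠ 0) (hb : ‖b‖ = ‖a‖) (hab : inner ℝ a b = 0) (x : E2) :
    x = (inner ℝ x a / ‖a‖ ^ 2) • a + (inner ℝ x b / ‖a‖ ^ 2) • b ∧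
      |a 0 * b 1 - a 1 * b 0| = ‖a‖ ^ 2 := by
  have hN : 0 < ‖a‖ ^ 2 := by positivity
  have h1 : ‖a‖ ^ 2 = a 0 ^ 2 + a 1 ^ 2 := by
    simp [EuclideanSpace.norm_sq_eq, Fin.sum_univ_two]
  have h2 : ‖a‖ ^ 2 = b 0 ^ 2 + b 1 ^ 2 := by
    rw [← hb]; simp [EuclideanSpace.norm_sq_eq, Fin.sum_univ_two]
  have h3 : a 0 * b 0 + a 1 * b 1 = 0 := by
    simp [PiLp.inner_apply, Fin.sum_univ_two] at hab; linarith
  have hx : ∀ y : E2, inner ℝ x y = x 0 * y 0 + x 1 * y 1 := by
    intro y; simp [PiLp.inner_apply, Fin.sum_univ_two]; ring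
  generalize ‖a‖ ^ 2 = N at *
  have g1 : a 0 ^ 2 + b 0 ^ 2 = N := by
    apply mul_left_cancel₀ hN.ne'
    linear_combination (a 0 * b 0 - a 1 * b 1) * h3 + (b 0 ^ 2 - N + b 0 ^ 2 + b 1 ^ 2 - b 0 ^ 2 -
      b 1 ^ 2) * h1 + (a 0 ^ 2 - a 0 ^ 2 - a 1 ^ 2) * h2
  have g2 : a 1 ^ 2 + b 1 ^ 2 = N := by linarith
  have g3 : a 0 * a 1 + b 0 * b 1 = 0 := by
    apply mul_left_cancel₀ hN.ne'
    linear_combination (a 0 * b 1 + a 1 * b 0) * h3 + (b 0 * b 1) * h1 + (a 0 * a 1) * h2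
  constructor
  · ext i
    fin_cases i <;> simp [hx] <;> field_simp
    · linear_combination (-x 0) * g1 - x 1 * g3
    · linear_combination (-x 1) * g2 - x 0 * g3
  · rw [← abs_of_pos hN, ← sq_eq_sq_iff_abs_eq_abs]
    linear_combination (-(a 0 * b 0 + a 1 * b 1)) * h3 - N * h1 - (a 0 ^ 2 + a 1 ^ 2) * h2

/-- the three dimensional picture of a tile -/
lemma open_base (h : ℝ) (hh : 0 < h) (T : Tile) (hT : T.valid) {η : ℝ} (hη : 0 < η) :
    ∃ (u : E3) (B : Set E3), ‖u‖ = 1 ∧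
      (Bornology.IsBounded B ∧ ∃ O : Set E3, IsOpen O ∧ B = O ∩ {x | inner ℝ x u = 0}) ∧
      (∀ (x : ℝ) (ξ : E2), (x, ξ) ∈ T.cyl → ∃ y ∈ B, ∃ τ : ℝ,
        (!₂[x, ξ 0, h * ξ 1] : E3) = y + τ • u) ∧
      (μHE[2] B).toReal ≤ (1 + 2 * η) ^ 2 * (h * T.wt h) := by
  obtain ⟨ha, hb, hab⟩ := hT
  set n : ℝ := √(1 + (T.g 0) ^ 2 + h ^ 2 * (T.g 1) ^ 2) with hn
  have hn0 : 0 < n := by positivity
  let d : E3 := !₂[1, T.g 0, h * T.g 1]
  have hd : ‖d‖ = n := by
    rw [EuclideanSpace.norm_eq, hn]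
    congr 1
    simp [d, Fin.sum_univ_three, mul_pow]
  let u : E3 := n⁻¹ • d
  have hu : ‖u‖ = 1 := by
    simp only [u, norm_smul, hd, Real.norm_eq_abs, abs_inv, abs_of_pos hn0]
    field_simp
  have hdu : d = n • u := by simp only [u, smul_smul, mul_inv_cancel₀ hn0.ne', one_smul]
  let lf : E2 → E3 := fun v => !₂[0, v 0, h * v 1]
  let ξf : E3 → E2 := fun z => !₂[z 1 - z 0 * T.g 0, z 2 / h - z 0 * T.g 1]
  have hz : ∀ z : E3, z = lf (ξf z) + (z 0 * n) • u := by
    intro z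
    rw [mul_smul, ← hdu]
    ext i
    fin_cases i <;> simp [lf, ξf, d]
    field_simp; ring
  have hlf : ∀ (c a b : E2) (s t : ℝ), lf (c + s • a + t • b) = lf c + s • lf a + t • lf b := by
    intro c a b s t
    ext i
    fin_cases i <;> simp [lf]
    ring
  let sf : E3 → ℝ := fun z => inner ℝ (ξf z - T.c) T.a / ‖T.a‖ ^ 2
  let tf : E3 → ℝ := fun z => inner ℝ (ξf z - T.c) T.b / ‖T.a‖ ^ 2
  have cξ : Continuous ξf := by
    simp only [ξf]
    refine (PiLp.continuous_toLp 2 _).comp ?_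
    refine continuous_pi fun i => ?_
    fin_cases i <;> simp <;> fun_prop
  have cs : Continuous sf := by simp only [sf]; fun_prop
  have ct : Continuous tf := by simp only [tf]; fun_prop
  let O : Set E3 := sf ⁻¹' Set.Ioo (-η) (1 + η) ∩ tf ⁻¹' Set.Ioo (-η) (1 + η)
  let φ : ℝ × ℝ → E3 := fun p => prj u (lf T.c) + p.1 • prj u (lf T.a) + p.2 • prj u (lf T.b)
  have hsub : O ∩ {x | inner ℝ x u = 0} ⊆ φ '' (Set.Icc (-η) (1 + η) ×ˢ Set.Icc (-η) (1 + η)) := by
    rintro z ⟨⟨h1, h2⟩, h3⟩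
    refine ⟨(sf z, tf z), ⟨Set.Ioo_subset_Icc_self h1, Set.Ioo_subset_Icc_self h2⟩, ?_⟩
    have e1 : ξf z = T.c + sf z • T.a + tf z • T.b := by
      have := (frame_decomp ha hb hab (ξf z - T.c)).1
      rw [add_assoc, ← this]; module
    simp only [φ]
    rw [← prj_comb, ← hlf, ← e1, ← prj_add_smul hu _ (z 0 * n), ← hz z]
    exact prj_of_inner h3
  have hcomp : IsCompact (φ '' (Set.Icc (-η) (1 + η) ×ˢ Set.Icc (-η) (1 + η))) :=
    (isCompact_Icc.prod isCompact_Icc).image (by simp only [φ]; fun_prop)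
  refine ⟨u, O ∩ {x | inner ℝ x u = 0}, hu, ⟨hcomp.isBounded.subset hsub, O,
    (isOpen_Ioo.preimage cs).inter (isOpen_Ioo.preimage ct), rfl⟩, ?_, ?_⟩
  · rintro x ξ ⟨s, hs, t, ht, hξ⟩
    simp only at hξ
    set z : E3 := !₂[x, ξ 0, h * ξ 1] with hzdef
    have e0 : ξf (prj u z) = T.c + s • T.a + t • T.b := by
      ext i
      fin_cases i <;> simp [ξf, prj, u, d, hzdef, hξ]
      · ring
      · field_simp; ring
    have N0 : ‖T.a‖ ^ 2 ≠ 0 := by positivity
    have e1 : sf (prj u z) = s := by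
      simp only [sf, e0]
      rw [show T.c + s • T.a + t • T.b - T.c = s • T.a + t • T.b by module, inner_add_left,
        real_inner_smul_left, real_inner_smul_left, real_inner_comm T.a T.b, hab,
        real_inner_self_eq_norm_sq]
      field_simp; ring
    have e2 : tf (prj u z) = t := by
      simp only [tf, e0]
      rw [show T.c + s • T.a + t • T.b - T.c = s • T.a + t • T.b by module, inner_add_left,
        real_inner_smul_left, real_inner_smul_left, hab, real_inner_self_eq_norm_sq, hb]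
      field_simp; ring
    refine ⟨prj u z, ⟨⟨?_, ?_⟩, inner_prj hu z⟩, inner ℝ z u, by simp [prj]⟩
    · rw [Set.mem_preimage, e1]; exact ⟨by linarith [hs.1], by linarith [hs.2]⟩
    · rw [Set.mem_preimage, e2]; exact ⟨by linarith [ht.1], by linarith [ht.2]⟩
  · have hg : gram (prj u (lf T.a)) (prj u (lf T.b)) = h * T.wt h := by
      have := gram_proj (lf T.a) (lf T.b) u hu
      simp only [prj]
      rw [this]
      have e : u 0 * (lf T.a 1 * lf T.b 2 - lf T.a 2 * lf T.b 1) +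
          u 1 * (lf T.a 2 * lf T.b 0 - lf T.a 0 * lf T.b 2) +
          u 2 * (lf T.a 0 * lf T.b 1 - lf T.a 1 * lf T.b 0) =
          (n⁻¹ * h) * (T.a 0 * T.b 1 - T.a 1 * T.b 0) := by
        simp [u, d, lf]; ring
      rw [e, abs_mul, (frame_decomp ha hb hab 0).2, abs_of_pos (by positivity)]
      simp only [Tile.wt, J, ← hn]
      field_simp
    have h1 := measure_mono (μ := μHE[2]) hsub
    rw [area_image, hg, Measure.volume_eq_prod, Measure.prod_prod, Real.volume_Icc,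
      ← ENNReal.ofReal_mul (by linarith), ← ENNReal.ofReal_mul
      (by rw [← hg]; exact gram_nonneg _ _)] at h1
    have h2 := ENNReal.toReal_le_of_le_ofReal (mul_nonneg (by rw [← hg]; exact gram_nonneg _ _)
      (mul_nonneg (by linarith) (by linarith))) h1
    refine h2.trans (le_of_eq ?_)
    ring

end Crest.Agent.H0326
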