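import Crest.Agent.H0326.Open

set_option autoImplicit false

namespace Crest.Agent.H0326

open MeasureTheory Filter Topology
open scoped ENNReal

lemma gram_comb (a b : E3) (s₁ t₁ s₂ t₂ : ℝ) :
    gram (s₁ • a + t₁ • b) (s₂ • a + t₂ • b) = |s₁ * t₂ - s₂ * t₁| * gram a b := by
  rw [gram, gram, ← Real.sqrt_sq_eq_abs, ← Real.sqrt_mul (sq_nonneg _)]
  congr 1
  simp only [← real_inner_self_eq_norm_sq, inner_add_left, inner_add_right, real_inner_smul_left,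
    real_inner_smul_right, real_inner_comm a b]
  ring

lemma gram_pos {a b : E3} (hab : LinearIndependent ℝ ![a, b]) : 0 < gram a b := by
  rw [LinearIndependent.pair_iff] at hab
  have hb : b ≠ 0 := by
    intro h
    have := (hab 0 1 (by simp [h])).2
    norm_num at this
  have hb2 : 0 < ‖b‖ ^ 2 := by positivity
  have hv : (‖b‖ ^ 2) • a + (-inner ℝ a b) • b ≠ 0 := fun h => hb2.ne' (hab _ _ h).1
  have h2 : 0 < ‖(‖b‖ ^ 2) • a + (-inner ℝ a b) • b‖ ^ 2 := by positivity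
  have h3 : ‖(‖b‖ ^ 2) • a + (-inner ℝ a b) • b‖ ^ 2 =
      ‖b‖ ^ 2 * (‖a‖ ^ 2 * ‖b‖ ^ 2 - inner ℝ a b ^ 2) := by
    simp only [← real_inner_self_eq_norm_sq, inner_add_left, inner_add_right, real_inner_smul_left,
      real_inner_smul_right, real_inner_comm a b]
    ring
  rw [h3] at h2
  exact Real.sqrt_pos.2 ((pos_iff_pos_of_mul_pos h2).1 hb2)

lemma affineIndependent_of_gram {p q r : E3} (h : 0 < gram (q - p) (r - p)) :
    AffineIndependent ℝ ![p, q, r] := by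
  rw [affineIndependent_iff_not_collinear_set]
  intro hc
  obtain ⟨v, hv⟩ := (collinear_iff_of_mem (p₀ := p) (by simp)).1 hc
  obtain ⟨s, hs⟩ := hv q (by simp)
  obtain ⟨t, ht⟩ := hv r (by simp)
  have : gram (q - p) (r - p) = 0 := by
    have := gram_comb v v s 0 t 0
    simp only [zero_smul, add_zero, mul_zero, sub_self, abs_zero, zero_mul] at this
    rw [hs, ht]
    simpa using this
  linarith

/-- projection along a nonzero vector -/
noncomputable def pr (d y : E3) : E3 := y - (inner ℝ y d / ‖d‖ ^ 2) • d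

lemma pr_inner {d : E3} (hd : d ≠ 0) (y : E3) : inner ℝ (pr d y) d = 0 := by
  have : ‖d‖ ^ 2 ≠ 0 := by positivity
  simp only [pr, inner_sub_left, real_inner_smul_left, real_inner_self_eq_norm_sq]
  field_simp; ring

lemma pr_comb {d : E3} (hd : d ≠ 0) (c a b : E3) (s t σ : ℝ) :
    pr d (c + s • a + t • b + σ • d) = pr d c + s • pr d a + t • pr d b := by
  have : ‖d‖ ^ 2 ≠ 0 := by positivity
  simp only [pr, inner_add_left, real_inner_smul_left, real_inner_self_eq_norm_sq, add_div,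
    mul_div_assoc, div_self this]
  module

lemma norm_sq_axis {e w : E3} (he : ‖e‖ = 1) (hw : inner ℝ w e = 0) :
    ‖e + w‖ ^ 2 = 1 + ‖w‖ ^ 2 := by
  rw [norm_add_sq_real, real_inner_comm, hw, he]; ring

lemma gram_pr {e a b w : E3} (he : ‖e‖ = 1) (ha : inner ℝ a e = 0) (hb : inner ℝ b e = 0)
    (hw : inner ℝ w e = 0) :
    gram (pr (e + w) a) (pr (e + w) b) = gram a b / √(1 + ‖w‖ ^ 2) := by
  have hN := norm_sq_axis he hw
  have hn : ‖e + w‖ = √(1 + ‖w‖ ^ 2) := by rw [← hN, Real.sqrt_sq (norm_nonneg _)]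
  have hn0 : 0 < ‖e + w‖ := by rw [hn]; positivity
  have hu : ‖‖e + w‖⁻¹ • (e + w)‖ = 1 := by
    rw [norm_smul, norm_inv, norm_norm]; field_simp
  have e1 : ∀ y, pr (e + w) y =
      y - inner ℝ y (‖e + w‖⁻¹ • (e + w)) • (‖e + w‖⁻¹ • (e + w)) := by
    intro y
    simp only [pr, real_inner_smul_right, smul_smul]
    congr 2
    field_simp
  have e2 := gram_proj a b e he
  rw [ha, hb, zero_smul, sub_zero, sub_zero] at e2
  rw [e1, e1, gram_proj _ _ _ hu, e2, ← hn]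
  have h : e 0 ^ 2 + e 1 ^ 2 + e 2 ^ 2 = 1 := by
    have := EuclideanSpace.norm_sq_eq e
    rw [he] at this
    simpa [Fin.sum_univ_three] using this.symm
  simp only [PiLp.inner_apply, Fin.sum_univ_three, RCLike.inner_apply, conj_trivial] at ha hb hw
  have hD : w 0 * (a 1 * b 2 - a 2 * b 1) + w 1 * (a 2 * b 0 - a 0 * b 2) +
      w 2 * (a 0 * b 1 - a 1 * b 0) = 0 := by
    linear_combination (-(w 0 * (a 1 * b 2 - a 2 * b 1) + w 1 * (a 2 * b 0 - a 0 * b 2) +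
      w 2 * (a 0 * b 1 - a 1 * b 0))) * h +
      (e 0 * (a 1 * b 2 - a 2 * b 1) + e 1 * (a 2 * b 0 - a 0 * b 2) +
        e 2 * (a 0 * b 1 - a 1 * b 0)) * hw +
      (e 0 * (b 1 * w 2 - b 2 * w 1) + e 1 * (b 2 * w 0 - b 0 * w 2) +
        e 2 * (b 0 * w 1 - b 1 * w 0)) * ha +
      (e 0 * (w 1 * a 2 - w 2 * a 1) + e 1 * (w 2 * a 0 - w 0 * a 2) +
        e 2 * (w 0 * a 1 - w 1 * a 0)) * hb
  rw [div_eq_inv_mul, ← abs_of_pos (inv_pos.2 hn0), ← abs_mul, abs_of_pos (inv_pos.2 hn0)]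
  congr 1
  simp only [PiLp.smul_apply, PiLp.add_apply, smul_eq_mul]
  linear_combination ‖e + w‖⁻¹ * hD

lemma w_diff {a b : E3} {α β : ℝ} {w : ℝ → E3} {lam : ℝ → ℝ}
    (hlam : ContinuousOn lam (Set.Icc α β))
    (hw' : ∀ t ∈ Set.Icc α β, HasDerivWithinAt w (lam t • (a + t • b)) (Set.Icc α β) t)
    {K : ℝ} (hK : ∀ t ∈ Set.Icc α β, |lam t| ≤ K) {c τ : ℝ} (hc : c ∈ Set.Icc α β)
    (hτ : τ ∈ Set.Icc α β) :
    ∃ x z : ℝ, |x| ≤ K * |τ - c| ∧ |z| ≤ K * |τ - c| * |τ - c| ∧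
      w τ - w c = x • (a + c • b) + z • b := by
  have hsub : Set.uIcc c τ ⊆ Set.Icc α β := Set.uIcc_subset_Icc hc hτ
  have i1 : IntervalIntegrable lam volume c τ := (hlam.mono hsub).intervalIntegrable
  have i2 : IntervalIntegrable (fun σ => lam σ * (σ - c)) volume c τ :=
    ((hlam.mono hsub).mul (by fun_prop)).intervalIntegrable
  refine ⟨∫ σ in c..τ, lam σ, ∫ σ in c..τ, lam σ * (σ - c), ?_, ?_, ?_⟩
  · have := intervalIntegral.norm_integral_le_of_norm_le_const (a := c) (b := τ) (f := lam) (C := K)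
      (fun x hx => hK x (hsub (Set.uIoc_subset_uIcc hx)))
    exact this
  · have := intervalIntegral.norm_integral_le_of_norm_le_const (a := c) (b := τ)
      (f := fun σ => lam σ * (σ - c)) (C := K * |τ - c|) (fun x hx => by
        have h1 := hK x (hsub (Set.uIoc_subset_uIcc hx))
        have h2 : |x - c| ≤ |τ - c| := Set.abs_sub_left_of_mem_uIcc (Set.uIoc_subset_uIcc hx)
        rw [Real.norm_eq_abs, abs_mul]
        exact mul_le_mul h1 h2 (abs_nonneg _) ((abs_nonneg _).trans h1))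
    exact this
  · have hc' : ContinuousOn w (Set.uIcc c τ) :=
      ContinuousOn.mono (fun t ht => (hw' t ht).continuousWithinAt) hsub
    have hi : IntervalIntegrable (fun σ => lam σ • (a + σ • b)) volume c τ :=
      ((hlam.mono hsub).smul (by fun_prop)).intervalIntegrable
    have := intervalIntegral.integral_eq_sub_of_hasDeriv_right hc' (fun x hx => by
      have h1 : α < x := lt_of_le_of_lt (le_min hc.1 hτ.1) hx.1
      have h2 : x < β := lt_of_lt_of_le hx.2 (max_le hc.2 hτ.2)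
      exact ((hw' x ⟨h1.le, h2.le⟩).hasDerivAt (Icc_mem_nhds h1 h2)).hasDerivWithinAt) hi
    rw [← this, ← intervalIntegral.integral_smul_const, ← intervalIntegral.integral_smul_const,
      ← intervalIntegral.integral_add (i1.smul_continuousOn continuousOn_const)
        (i2.smul_continuousOn continuousOn_const)]
    congr 1
    ext1 σ
    module

lemma sum_tele {N : ℕ} (g : Fin (N + 1) → ℝ) :
    ∑ i : Fin N, (g i.succ - g i.castSucc) = g (Fin.last N) - g 0 := by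
  have h1 := Fin.sum_univ_succ g
  have h2 := Fin.sum_univ_castSucc g
  rw [Finset.sum_sub_distrib]; linarith

lemma exists_piece {N : ℕ} (t : Fin (N + 1) → ℝ) {τ : ℝ} (h0 : t 0 ≤ τ) (h1 : τ ≤ t (Fin.last N))
    (h2 : t 0 < t (Fin.last N)) : ∃ i : Fin N, t i.castSucc ≤ τ ∧ τ ≤ t i.succ := by
  classical
  rcases N with _ | N
  · simp at h2
  obtain ⟨i, hi, hmax⟩ := Finset.exists_max_image
    (Finset.univ.filter fun i : Fin (N + 1) => t i.castSucc ≤ τ) id ⟨0, by simpa using h0⟩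
  refine ⟨i, (Finset.mem_filter.1 hi).2, ?_⟩
  by_contra hcon
  push Not at hcon
  rcases Fin.eq_castSucc_or_eq_last i.succ with ⟨j, hj⟩ | hj
  · have := hmax j (Finset.mem_filter.2 ⟨Finset.mem_univ _, hj ▸ hcon.le⟩)
    have h3 := congrArg Fin.val hj
    simp only [Fin.val_succ, Fin.val_castSucc] at h3
    simp only [id, Fin.le_def] at this
    omega
  · rw [hj] at hcon; linarith

lemma tri_coords {X Z u₀ u₁ K H X₁ : ℝ} (hΔ : u₀ < u₁) (hH : 0 < H)
    (hH' : H = X₁ + 4 * K * (u₁ - u₀))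
    (h1 : 0 ≤ Z - u₀ * X + 2 * K * (u₁ - u₀) ^ 2) (h2 : 0 ≤ u₁ * X - Z + 2 * K * (u₁ - u₀) ^ 2)
    (h3 : X ≤ X₁) : ∃ s : ℝ × ℝ, s ∈ stdTri ∧ X = -4 * K * (u₁ - u₀) + s.1 * H + s.2 * H ∧
      Z = (u₀ * (-4 * K * (u₁ - u₀)) - 2 * K * (u₁ - u₀) ^ 2) + s.1 * (H * u₀) + s.2 * (H * u₁) := by
  have hΔ' : 0 < u₁ - u₀ := by linarith
  refine ⟨((u₁ * X - Z + 2 * K * (u₁ - u₀) ^ 2) / ((u₁ - u₀) * H),
    (Z - u₀ * X + 2 * K * (u₁ - u₀) ^ 2) / ((u₁ - u₀) * H)), ⟨by positivity, by positivity, ?_⟩,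
    ?_, ?_⟩
  · simp only
    rw [← add_div, div_le_one (by positivity), hH']
    nlinarith
  · simp only; field_simp; ring
  · simp only; field_simp; ring

lemma piece {e a b p₀ wc : E3} (he : ‖e‖ = 1) (ha : inner ℝ a e = 0) (hb : inner ℝ b e = 0)
    (hab : LinearIndependent ℝ ![a, b]) (hw : inner ℝ wc e = 0) {L : ℝ} (hL : 0 ≤ L)
    (R : ℝ → ℝ) (w : ℝ → E3)
    {t₀ t₁ c K ω : ℝ} (h0 : t₀ ≤ c) (h1 : c ≤ t₁) (h01 : t₀ < t₁) (hK : 0 < K) (hω : 0 ≤ ω)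
    (hR0 : ∀ τ ∈ Set.Icc t₀ t₁, 0 ≤ R τ) (hR : ∀ τ ∈ Set.Icc t₀ t₁, |R τ - R c| ≤ ω)
    (hdiff : ∀ τ ∈ Set.Icc t₀ t₁, ∃ x z : ℝ, L * |x| ≤ K * (t₁ - t₀) ∧
      L * |z| ≤ K * (t₁ - t₀) ^ 2 ∧ w τ - wc = x • (a + c • b) + z • b) :
    ∃ p q r : E3, (inner ℝ p (e + wc) = 0 ∧ inner ℝ q (e + wc) = 0 ∧ inner ℝ r (e + wc) = 0) ∧
      AffineIndependent ℝ ![p, q, r] ∧
      (∀ x : E3, (∃ τ ∈ Set.Icc t₀ t₁, ∃ ρ ∈ Set.Icc 0 (R τ), ∃ s : ℝ, |s| ≤ L ∧
        x = p₀ + ρ • (a + τ • b) + s • (e + w τ)) →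
        ∃ y ∈ convexHull ℝ {p, q, r}, ∃ σ : ℝ, x = y + σ • (e + wc)) ∧
      (μHE[2] (convexHull ℝ ({p, q, r} : Set E3))).toReal =
        (R c + ω + 5 * K * (t₁ - t₀)) ^ 2 * (t₁ - t₀) * (gram a b / √(1 + ‖wc‖ ^ 2)) / 2 ∧
      (max (R c - ω) 0) ^ 2 * (t₁ - t₀) * (gram a b / √(1 + ‖wc‖ ^ 2)) / 2 ≤
        (μHE[2] (pr (e + wc) '' {x : E3 | ∃ τ ∈ Set.Icc t₀ t₁, ∃ ρ ∈ Set.Icc 0 (R τ), ∃ s : ℝ,
          |s| ≤ L ∧ x = p₀ + ρ • (a + τ • b) + s • (e + w τ)})).toReal ∧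
      (μHE[2] (pr (e + wc) '' {x : E3 | ∃ τ ∈ Set.Icc t₀ t₁, ∃ ρ ∈ Set.Icc 0 (R τ), ∃ s : ℝ,
          |s| ≤ L ∧ x = p₀ + ρ • (a + τ • b) + s • (e + w τ)})).toReal ≤
        (R c + ω + 5 * K * (t₁ - t₀)) ^ 2 * (t₁ - t₀) * (gram a b / √(1 + ‖wc‖ ^ 2)) / 2 := by
  set d := e + wc with hd
  have hd0 : d ≠ 0 := by
    intro h
    have := norm_sq_axis he hw
    rw [← hd, h] at this
    simp at this
    nlinarith [sq_nonneg ‖wc‖]
  set G := gram a b / √(1 + ‖wc‖ ^ 2) with hG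
  have hG0 : 0 < G := div_pos (gram_pos hab) (by positivity)
  set A := pr d (a + c • b) with hA
  set B := pr d b with hB
  have hAB : gram A B = G := by
    have e1 : A = (1 : ℝ) • pr d a + c • pr d b := by
      have := pr_comb hd0 0 a b 1 c 0
      simp only [one_smul, zero_smul, add_zero, zero_add] at this ⊢
      rw [hA, this]; simp [pr]
    have e2 : B = (0 : ℝ) • pr d a + (1 : ℝ) • pr d b := by simp [hB]
    rw [e1, e2, gram_comb, hd, gram_pr he ha hb hw]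
    simp [hG]
  have hΔ : 0 < t₁ - t₀ := by linarith
  have hRc : 0 ≤ R c := hR0 c ⟨h0, h1⟩
  set H := R c + ω + 5 * K * (t₁ - t₀) with hH
  have hH0 : 0 < H := by positivity
  set u₀ := t₀ - c with hu₀
  set u₁ := t₁ - c with hu₁
  have hu : u₁ - u₀ = t₁ - t₀ := by rw [hu₀, hu₁]; ring
  set p : E3 := pr d p₀ + (-4 * K * (u₁ - u₀)) • A +
    (u₀ * (-4 * K * (u₁ - u₀)) - 2 * K * (u₁ - u₀) ^ 2) • B with hp
  set q : E3 := p + (H • A + (H * u₀) • B) with hq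
  set r : E3 := p + (H • A + (H * u₁) • B) with hr
  have hgram : gram (q - p) (r - p) = H ^ 2 * (t₁ - t₀) * G := by
    rw [hq, hr, add_sub_cancel_left, add_sub_cancel_left, gram_comb, hAB,
      show H * (H * u₁) - H * (H * u₀) = H ^ 2 * (u₁ - u₀) by ring, hu, abs_of_pos (by positivity)]
  have harea : μHE[2] (convexHull ℝ ({p, q, r} : Set E3)) =
      ENNReal.ofReal (H ^ 2 * (t₁ - t₀) * G / 2) := by rw [area_triangle, hgram]
  have hin : ∀ x : E3, (∃ τ ∈ Set.Icc t₀ t₁, ∃ ρ ∈ Set.Icc 0 (R τ), ∃ s : ℝ, |s| ≤ L ∧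
        x = p₀ + ρ • (a + τ • b) + s • (e + w τ)) → pr d x ∈ convexHull ℝ {p, q, r} := by
    rintro _ ⟨τ, hτ, ρ, hρ, s, hs, rfl⟩
    obtain ⟨x, z, hx, hz, hwt⟩ := hdiff τ hτ
    have e1 : p₀ + ρ • (a + τ • b) + s • (e + w τ) =
        p₀ + (ρ + s * x) • (a + c • b) + (ρ * (τ - c) + s * z) • b + s • d := by
      have : w τ = wc + (x • (a + c • b) + z • b) := by rw [← hwt]; module
      rw [this, hd]; module
    have b1 : |s * x| ≤ K * (t₁ - t₀) := by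
      rw [abs_mul]; exact le_trans (by gcongr) hx
    have b2 : |s * z| ≤ K * (t₁ - t₀) ^ 2 := by
      rw [abs_mul]; exact le_trans (by gcongr) hz
    have b3 : |u₀ * (s * x)| ≤ (t₁ - t₀) * (K * (t₁ - t₀)) := by
      rw [abs_mul]
      have : |u₀| ≤ t₁ - t₀ := by rw [abs_le, hu₀]; constructor <;> linarith
      gcongr
    have b4 : |u₁ * (s * x)| ≤ (t₁ - t₀) * (K * (t₁ - t₀)) := by
      rw [abs_mul]
      have : |u₁| ≤ t₁ - t₀ := by rw [abs_le, hu₁]; constructor <;> linarith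
      gcongr
    have b5 := hR τ hτ
    rw [abs_le] at b1 b2 b3 b4 b5
    have b6 : 0 ≤ ρ * (τ - t₀) := mul_nonneg hρ.1 (by linarith [hτ.1])
    have b7 : 0 ≤ ρ * (t₁ - τ) := mul_nonneg hρ.1 (by linarith [hτ.2])
    obtain ⟨σ, hσ, hX, hZ⟩ := tri_coords (X := ρ + s * x) (Z := ρ * (τ - c) + s * z) (u₀ := u₀)
      (u₁ := u₁) (K := K) (H := H) (X₁ := R c + ω + K * (t₁ - t₀)) (by linarith) hH0
      (by rw [hH, hu]; ring)
      (by
        have : ρ * (τ - c) - u₀ * ρ = ρ * (τ - t₀) := by rw [hu₀]; ring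
        rw [hu]; linarith)
      (by
        have : u₁ * ρ - ρ * (τ - c) = ρ * (t₁ - τ) := by rw [hu₁]; ring
        rw [hu]; linarith)
      (by linarith [hρ.2])
    rw [e1, pr_comb hd0, convexHull_triple, ← hA, ← hB]
    refine ⟨σ, hσ, ?_⟩
    simp only
    rw [hX, hZ, hq, hr, add_sub_cancel_left, add_sub_cancel_left, hp]
    module
  have hsub : pr d '' {x : E3 | ∃ τ ∈ Set.Icc t₀ t₁, ∃ ρ ∈ Set.Icc 0 (R τ), ∃ s : ℝ,
      |s| ≤ L ∧ x = p₀ + ρ • (a + τ • b) + s • (e + w τ)} ⊆ convexHull ℝ {p, q, r} := by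
    rintro _ ⟨x, hx, rfl⟩; exact hin x hx
  have hA0 : inner ℝ A d = 0 := pr_inner hd0 _
  have hB0 : inner ℝ B d = 0 := pr_inner hd0 _
  have hp0 : inner ℝ p d = 0 := by
    rw [hp]; simp only [inner_add_left, real_inner_smul_left, hA0, hB0, pr_inner hd0]; ring
  refine ⟨p, q, r, ⟨hp0, ?_, ?_⟩, affineIndependent_of_gram (by rw [hgram]; positivity),
    fun x hx => ⟨pr d x, hin x hx, inner ℝ x d / ‖d‖ ^ 2, by simp [pr]⟩, ?_, ?_, ?_⟩
  · rw [hq]; simp only [inner_add_left, real_inner_smul_left, hA0, hB0, hp0]; ring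
  · rw [hr]; simp only [inner_add_left, real_inner_smul_left, hA0, hB0, hp0]; ring
  · rw [harea, ENNReal.toReal_ofReal (by positivity)]
  · set m := max (R c - ω) 0 with hm
    have hm0 : 0 ≤ m := le_max_right _ _
    have hfin := ne_top_of_le_ne_top (by rw [harea]; exact ENNReal.ofReal_ne_top)
      (measure_mono (μ := μHE[2]) hsub)
    refine (ENNReal.ofReal_le_iff_le_toReal hfin).1 ?_
    have e2 : μHE[2] (convexHull ℝ ({pr d p₀, pr d p₀ + (m • A + (m * u₀) • B),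
        pr d p₀ + (m • A + (m * u₁) • B)} : Set E3)) =
        ENNReal.ofReal (m ^ 2 * (t₁ - t₀) * G / 2) := by
      rw [area_triangle, add_sub_cancel_left, add_sub_cancel_left, gram_comb, hAB,
        show m * (m * u₁) - m * (m * u₀) = m ^ 2 * (u₁ - u₀) by ring, hu,
        abs_of_nonneg (by positivity)]
    rw [← e2]
    apply measure_mono
    rw [convexHull_triple]
    rintro _ ⟨⟨s₁, s₂⟩, ⟨g1, g2, g3⟩, rfl⟩
    simp only at g1 g2 g3
    obtain ⟨τ, hτ, hτ'⟩ : ∃ τ ∈ Set.Icc t₀ t₁, (s₁ + s₂) * (τ - c) = s₁ * u₀ + s₂ * u₁ := by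
      rcases (add_nonneg g1 g2).eq_or_lt with h | h
      · have : s₁ = 0 := by linarith
        have : s₂ = 0 := by linarith
        subst_vars
        exact ⟨c, ⟨h0, h1⟩, by simp⟩
      · refine ⟨(s₁ * t₀ + s₂ * t₁) / (s₁ + s₂), ⟨?_, ?_⟩, ?_⟩
        · rw [le_div_iff₀ h]; nlinarith
        · rw [div_le_iff₀ h]; nlinarith
        · rw [hu₀, hu₁]; field_simp; ring
    have hmR : m ≤ R τ := by
      have := abs_le.1 (hR τ hτ)
      exact max_le (by linarith) (hR0 τ hτ)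
    refine ⟨p₀ + ((s₁ + s₂) * m) • (a + τ • b) + (0 : ℝ) • (e + w τ),
      ⟨τ, hτ, (s₁ + s₂) * m, ⟨by positivity, by nlinarith⟩, 0, by simpa using hL, rfl⟩, ?_⟩
    have e3 : p₀ + ((s₁ + s₂) * m) • (a + τ • b) + (0 : ℝ) • (e + w τ) =
        p₀ + ((s₁ + s₂) * m) • (a + c • b) + (m * ((s₁ + s₂) * (τ - c))) • b + (0 : ℝ) • d := by
      module
    rw [e3, pr_comb hd0, hτ', ← hA, ← hB]
    simp only [add_sub_cancel_left]
    module
  · exact ENNReal.toReal_le_of_le_ofReal (by positivity) (harea ▸ measure_mono hsub)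

end Crest.Agent.H0326
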